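import Mathlib
import Vale.Agent.Lib.P243.Defs
import Vale.Agent.Lib.P243.R3.Defs

/-!
# P243, `r_3 > 1/3`, module M4 (second copy): coordinate kit in Euclidean 3-space
-/

namespace Vale.Agent.Lib.P243.R3

open MeasureTheory Set

/-- The cross product of two vectors of Euclidean 3-space. -/
noncomputable def M4h51_cr (u v : E3) : E3 :=
  !₂[u 1 * v 2 - u 2 * v 1, u 2 * v 0 - u 0 * v 2, u 0 * v 1 - u 1 * v 0]

theorem M4h51_inner (u v : E3) : inner ℝ u v = u 0 * v 0 + u 1 * v 1 + u 2 * v 2 := by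
  simp [PiLp.inner_apply, Fin.sum_univ_three]
  ring

theorem M4h51_cr0 (u v : E3) : M4h51_cr u v 0 = u 1 * v 2 - u 2 * v 1 := by
  simp [M4h51_cr]

theorem M4h51_cr1 (u v : E3) : M4h51_cr u v 1 = u 2 * v 0 - u 0 * v 2 := by
  simp [M4h51_cr]

theorem M4h51_cr2 (u v : E3) : M4h51_cr u v 2 = u 0 * v 1 - u 1 * v 0 := by
  simp [M4h51_cr]

theorem M4h51_cr_perp_left (u v : E3) : inner ℝ u (M4h51_cr u v) = 0 := by
  rw [M4h51_inner, M4h51_cr0, M4h51_cr1, M4h51_cr2]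
  ring

theorem M4h51_cr_perp_right (u v : E3) : inner ℝ v (M4h51_cr u v) = 0 := by
  rw [M4h51_inner, M4h51_cr0, M4h51_cr1, M4h51_cr2]
  ring

theorem M4h51_ext {x y : E3} (h0 : x 0 = y 0) (h1 : x 1 = y 1) (h2 : x 2 = y 2) : x = y := by
  ext i
  fin_cases i
  · exact h0
  · exact h1
  · exact h2

theorem M4h51_par_of_cr_zero {u v : E3} (hu : u ≠ 0) (h : M4h51_cr u v = 0) :
    ∃ s : ℝ, v = s • u := by
  have c0 : u 1 * v 2 - u 2 * v 1 = 0 := by rw [← M4h51_cr0, h]; rfl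
  have c1 : u 2 * v 0 - u 0 * v 2 = 0 := by rw [← M4h51_cr1, h]; rfl
  have c2 : u 0 * v 1 - u 1 * v 0 = 0 := by rw [← M4h51_cr2, h]; rfl
  have hN : 0 < inner ℝ u u := real_inner_self_pos.mpr hu
  rw [M4h51_inner] at hN
  have hN' : u 0 * u 0 + u 1 * u 1 + u 2 * u 2 ≠ 0 := ne_of_gt hN
  refine ⟨(u 0 * v 0 + u 1 * v 1 + u 2 * v 2) / (u 0 * u 0 + u 1 * u 1 + u 2 * u 2), ?_⟩
  apply M4h51_ext
  · simp only [PiLp.smul_apply, smul_eq_mul]
    rw [div_mul_eq_mul_div, eq_div_iff hN']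
    linear_combination (-(u 1)) * c2 + (u 2) * c1
  · simp only [PiLp.smul_apply, smul_eq_mul]
    rw [div_mul_eq_mul_div, eq_div_iff hN']
    linear_combination (u 0) * c2 - (u 2) * c0
  · simp only [PiLp.smul_apply, smul_eq_mul]
    rw [div_mul_eq_mul_div, eq_div_iff hN']
    linear_combination (-(u 0)) * c1 + (u 1) * c0

theorem M4h51_par_cr {u v z : E3} (h : M4h51_cr u v ≠ 0) (hzu : inner ℝ z u = 0)
    (hzv : inner ℝ z v = 0) : ∃ s : ℝ, z = s • M4h51_cr u v := by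
  rw [M4h51_inner] at hzu hzv
  apply M4h51_par_of_cr_zero h
  apply M4h51_ext
  · rw [M4h51_cr0, M4h51_cr1, M4h51_cr2]
    show _ = (0 : ℝ)
    linear_combination (v 0) * hzu - (u 0) * hzv
  · rw [M4h51_cr1, M4h51_cr2, M4h51_cr0]
    show _ = (0 : ℝ)
    linear_combination (v 1) * hzu - (u 1) * hzv
  · rw [M4h51_cr2, M4h51_cr0, M4h51_cr1]
    show _ = (0 : ℝ)
    linear_combination (v 2) * hzu - (u 2) * hzv

end Vale.Agent.Lib.P243.R3
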