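import Mathlib
import Vale.Agent.Lib.P243.Defs
import Vale.Agent.Lib.P243.R3.Defs
import Vale.Agent.Lib.P243.R3.helper51.M4Kit

/-!
# P243, `r_3 > 1/3`, module M4 (second copy): support vectors of a convex body
-/

namespace Vale.Agent.Lib.P243.R3

open MeasureTheory Set

/-- `n` is a support vector of `K` at the point `x` of `K`. -/
def M4h51_Sup (K : Set E3) (n x : E3) : Prop :=
  n ≠ 0 ∧ x ∈ K ∧ ∀ k ∈ K, inner ℝ n k ≤ inner ℝ n x

/-- The pair `p`, `q` has the star property with respect to `K`. -/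
def M4h51_Star (K : Set E3) (p q : E3) : Prop :=
  p ∈ K ∧ q ∈ K ∧ ∀ x ∈ frontier K, segment ℝ p x ⊆ frontier K ∨ segment ℝ q x ⊆ frontier K

theorem M4h51_sup_not_interior {K : Set E3} {n x : E3} (h : M4h51_Sup K n x) :
    x ∉ interior K := by
  intro hx
  obtain ⟨hn, -, hle⟩ := h
  rw [mem_interior_iff_mem_nhds, Metric.mem_nhds_iff] at hx
  obtain ⟨ε, hε, hball⟩ := hx
  have hnn : 0 < ‖n‖ := norm_pos_iff.mpr hn
  have hk : x + (ε / (2 * ‖n‖)) • n ∈ K := by
    apply hball
    rw [Metric.mem_ball, dist_eq_norm, add_sub_cancel_left, norm_smul, Real.norm_eq_abs,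
      abs_of_pos (by positivity)]
    have : ε / (2 * ‖n‖) * ‖n‖ = ε / 2 := by field_simp
    rw [this]
    linarith
  have h1 := hle _ hk
  rw [inner_add_right, inner_smul_right, real_inner_self_eq_norm_sq] at h1
  have h2 : 0 < ε / (2 * ‖n‖) * ‖n‖ ^ 2 := by positivity
  linarith

theorem M4h51_mem_frontier {K : Set E3} (hK : Body K) {n x : E3} (h : M4h51_Sup K n x) :
    x ∈ frontier K := by
  rw [hK.compact.isClosed.frontier_eq]
  exact ⟨h.2.1, M4h51_sup_not_interior h⟩

theorem M4h51_exists_sup {K : Set E3} (hK : Body K) {x : E3} (hx : x ∈ frontier K) :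
    ∃ n : E3, M4h51_Sup K n x := by
  rw [hK.compact.isClosed.frontier_eq] at hx
  obtain ⟨hxK, hxi⟩ := hx
  obtain ⟨f, hf⟩ := geometric_hahn_banach_open_point hK.conv.interior isOpen_interior hxi
  have key : ∀ z : E3, inner ℝ ((InnerProductSpace.toDual ℝ E3).symm f) z = f z := fun z =>
    InnerProductSpace.toDual_symm_apply
  refine ⟨(InnerProductSpace.toDual ℝ E3).symm f, ?_, hxK, ?_⟩
  · intro h0
    obtain ⟨a, ha⟩ := hK.int
    have h1 := hf a ha
    rw [← key a, ← key x, h0] at h1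
    simp at h1
  · intro k hk
    have hcl : k ∈ closure (interior K) := by
      rw [hK.conv.closure_interior_eq_closure_of_nonempty_interior hK.int]
      exact subset_closure hk
    have hclosed : IsClosed {k : E3 | f k ≤ f x} :=
      isClosed_le f.continuous continuous_const
    have hsub : interior K ⊆ {k : E3 | f k ≤ f x} := fun a ha => (hf a ha).le
    have := closure_minimal hsub hclosed hcl
    rw [key k, key x]
    exact this

theorem M4h51_co_of_seg {K : Set E3} (hK : Body K) {a x : E3} (ha : a ∈ K) (hxK : x ∈ K)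
    (hseg : segment ℝ a x ⊆ frontier K) :
    ∃ n : E3, M4h51_Sup K n x ∧ inner ℝ n a = inner ℝ n x := by
  have hm : (1 / 2 : ℝ) • a + (1 / 2 : ℝ) • x ∈ segment ℝ a x :=
    ⟨1 / 2, 1 / 2, by norm_num, by norm_num, by norm_num, rfl⟩
  obtain ⟨n, hn, hmK, hle⟩ := M4h51_exists_sup hK (hseg hm)
  have h1 := hle a ha
  have h2 := hle x hxK
  rw [inner_add_right, inner_smul_right, inner_smul_right] at h1 h2
  refine ⟨n, ⟨hn, hxK, fun k hk => ?_⟩, by linarith⟩
  have h3 := hle k hk
  rw [inner_add_right, inner_smul_right, inner_smul_right] at h3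
  linarith

theorem M4h51_star_co {K : Set E3} (hK : Body K) {p q : E3} (h : M4h51_Star K p q) {x : E3}
    (hx : x ∈ frontier K) :
    ∃ a n : E3, (a = p ∨ a = q) ∧ M4h51_Sup K n x ∧ inner ℝ n a = inner ℝ n x := by
  have hxK : x ∈ K := by
    rw [hK.compact.isClosed.frontier_eq] at hx
    exact hx.1
  rcases h.2.2 x hx with hs | hs
  · obtain ⟨n, hn, he⟩ := M4h51_co_of_seg hK h.1 hxK hs
    exact ⟨p, n, Or.inl rfl, hn, he⟩
  · obtain ⟨n, hn, he⟩ := M4h51_co_of_seg hK h.2.1 hxK hs
    exact ⟨q, n, Or.inr rfl, hn, he⟩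

/-- An interior point lies strictly below every support plane. -/
theorem M4h51_interior_lt {K : Set E3} {n : E3} {c : ℝ} (hn : n ≠ 0)
    (hle : ∀ k ∈ K, inner ℝ n k ≤ c) {z : E3} (hz : z ∈ interior K) : inner ℝ n z < c := by
  rcases lt_or_eq_of_le (hle z (interior_subset hz)) with h | h
  · exact h
  · exfalso
    exact M4h51_sup_not_interior (K := K) (n := n) (x := z)
      ⟨hn, interior_subset hz, fun k hk => by rw [h]; exact hle k hk⟩ hz

end Vale.Agent.Lib.P243.R3
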