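import Mathlib
import Vale.Agent.Lib.P243.Defs
import Vale.Agent.Lib.P243.R3.Defs
import Vale.Agent.Lib.P243.R3.helper51.M4Kit
import Vale.Agent.Lib.P243.R3.helper51.M4Sup

/-!
# P243, `r_3 > 1/3`, module M4 (second copy): facets and pairs of planes
-/

namespace Vale.Agent.Lib.P243.R3

open MeasureTheory Set

/-- `n`, `c` is a facet plane of `K`: a support plane containing three non-collinear points
of `K`. -/
def M4h51_Facet (K : Set E3) (n : E3) (c : ℝ) : Prop :=
  n ≠ 0 ∧ (∀ k ∈ K, inner ℝ n k ≤ c) ∧ ∃ y1 ∈ K, ∃ y2 ∈ K, ∃ y3 ∈ K,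
    inner ℝ n y1 = c ∧ inner ℝ n y2 = c ∧ inner ℝ n y3 = c ∧
      M4h51_cr (y2 - y1) (y3 - y1) ≠ 0

/-- The two planes coincide. -/
def M4h51_SameP (n : E3) (c : ℝ) (n' : E3) (c' : ℝ) : Prop :=
  ∀ z : E3, inner ℝ n z = c ↔ inner ℝ n' z = c'

/-- Every facet plane contains an endpoint of every star pair. -/
theorem M4h51_facet_mem {K : Set E3} (hK : Body K) {p q : E3} (h : M4h51_Star K p q)
    {n : E3} {c : ℝ} (hF : M4h51_Facet K n c) : inner ℝ n p = c ∨ inner ℝ n q = c := by
  obtain ⟨hn, hle, y1, hy1, y2, hy2, y3, hy3, e1, e2, e3, hind⟩ := hF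
  set x : E3 := (1 / 3 : ℝ) • y1 + (1 / 3 : ℝ) • y2 + (1 / 3 : ℝ) • y3 with hxdef
  have hxK : x ∈ K := by
    have h12 : (1 / 2 : ℝ) • y1 + (1 / 2 : ℝ) • y2 ∈ K :=
      hK.conv hy1 hy2 (by norm_num) (by norm_num) (by norm_num)
    have h123 : (2 / 3 : ℝ) • ((1 / 2 : ℝ) • y1 + (1 / 2 : ℝ) • y2) + (1 / 3 : ℝ) • y3 ∈ K :=
      hK.conv h12 hy3 (by norm_num) (by norm_num) (by norm_num)
    have e : x = (2 / 3 : ℝ) • ((1 / 2 : ℝ) • y1 + (1 / 2 : ℝ) • y2) + (1 / 3 : ℝ) • y3 := by
      rw [hxdef, smul_add, smul_smul, smul_smul]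
      norm_num
    rw [e]
    exact h123
  have hnx : inner ℝ n x = c := by
    rw [hxdef, inner_add_right, inner_add_right, inner_smul_right, inner_smul_right,
      inner_smul_right, e1, e2, e3]
    ring
  have hsup : M4h51_Sup K n x := ⟨hn, hxK, fun k hk => by rw [hnx]; exact hle k hk⟩
  have hxf : x ∈ frontier K := M4h51_mem_frontier hK hsup
  obtain ⟨a, g, ha, ⟨hg, -, hgle⟩, hga⟩ := M4h51_star_co hK h hxf
  have g1 := hgle y1 hy1
  have g2 := hgle y2 hy2
  have g3 := hgle y3 hy3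
  have hgx : inner ℝ g x = (1 / 3 : ℝ) * inner ℝ g y1 + (1 / 3 : ℝ) * inner ℝ g y2
      + (1 / 3 : ℝ) * inner ℝ g y3 := by
    rw [hxdef, inner_add_right, inner_add_right, inner_smul_right, inner_smul_right,
      inner_smul_right]
  have f1 : inner ℝ g y1 = inner ℝ g x := by linarith
  have f2 : inner ℝ g y2 = inner ℝ g x := by linarith
  have f3 : inner ℝ g y3 = inner ℝ g x := by linarith
  have pg2 : inner ℝ g (y2 - y1) = 0 := by rw [inner_sub_right]; linarith
  have pg3 : inner ℝ g (y3 - y1) = 0 := by rw [inner_sub_right]; linarith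
  have pn2 : inner ℝ n (y2 - y1) = 0 := by rw [inner_sub_right]; linarith
  have pn3 : inner ℝ n (y3 - y1) = 0 := by rw [inner_sub_right]; linarith
  obtain ⟨s, hs⟩ := M4h51_par_cr hind pg2 pg3
  obtain ⟨s', hs'⟩ := M4h51_par_cr hind pn2 pn3
  have hs0 : s ≠ 0 := by
    intro h0
    rw [h0, zero_smul] at hs
    exact hg hs
  have hwa : inner ℝ (M4h51_cr (y2 - y1) (y3 - y1)) a
      = inner ℝ (M4h51_cr (y2 - y1) (y3 - y1)) x := by
    rw [hs, inner_smul_left, inner_smul_left] at hga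
    exact mul_left_cancel₀ (by simpa using hs0) hga
  have hna : inner ℝ n a = c := by
    rw [← hnx, hs', inner_smul_left, inner_smul_left, hwa]
  rcases ha with rfl | rfl
  · exact Or.inl hna
  · exact Or.inr hna

/-- Two distinct planes meet a compact convex set inside a segment. -/
theorem M4h51_planes_seg {K : Set E3} (hKc : IsCompact K) (hne : K.Nonempty) {n1 n2 : E3}
    {c1 c2 : ℝ} (h1 : n1 ≠ 0) (h2 : n2 ≠ 0) (hdist : ¬ M4h51_SameP n1 c1 n2 c2) :
    ∃ α β : E3, α ∈ K ∧ β ∈ K ∧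
      ∀ s ∈ K, inner ℝ n1 s = c1 → inner ℝ n2 s = c2 → s ∈ segment ℝ α β := by
  set S : Set E3 := K ∩ {s | inner ℝ n1 s = c1 ∧ inner ℝ n2 s = c2} with hS
  rcases S.eq_empty_or_nonempty with hemp | hSne
  · obtain ⟨x0, hx0⟩ := hne
    refine ⟨x0, x0, hx0, hx0, fun s hs e1 e2 => ?_⟩
    have : s ∈ S := ⟨hs, e1, e2⟩
    rw [hemp] at this
    exact absurd this (Set.notMem_empty s)
  · have hScl : IsClosed {s : E3 | inner ℝ n1 s = c1 ∧ inner ℝ n2 s = c2} := by
      apply IsClosed.inter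
      · exact isClosed_eq (by fun_prop) continuous_const
      · exact isClosed_eq (by fun_prop) continuous_const
    have hSc : IsCompact S := hKc.inter_right hScl
    by_cases hd : M4h51_cr n1 n2 = 0
    · exfalso
      obtain ⟨t, ht⟩ := M4h51_par_of_cr_zero h1 hd
      obtain ⟨s0, -, e1, e2⟩ := hSne
      have ht0 : t ≠ 0 := by
        intro h0
        rw [h0, zero_smul] at ht
        exact h2 ht
      have hc : c2 = t * c1 := by
        rw [← e2, ht, inner_smul_left, e1]
        simp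
      apply hdist
      intro z
      rw [ht, inner_smul_left, hc]
      simp only [conj_trivial]
      constructor
      · intro hz
        rw [hz]
      · intro hz
        exact mul_left_cancel₀ ht0 hz
    · set d : E3 := M4h51_cr n1 n2 with hddef
      have hcont : ContinuousOn (fun s : E3 => inner ℝ d s) S := by
        apply Continuous.continuousOn
        fun_prop
      obtain ⟨α, hα, hαmin⟩ := hSc.exists_isMinOn hSne hcont
      obtain ⟨β, hβ, hβmax⟩ := hSc.exists_isMaxOn hSne hcont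
      have hdd : 0 < inner ℝ d d := real_inner_self_pos.mpr hd
      have hpar : ∀ s ∈ S, ∃ l : ℝ, s = α + l • d := by
        intro s hs
        have p1 : inner ℝ (s - α) n1 = 0 := by
          rw [inner_sub_left, real_inner_comm, hs.2.1, real_inner_comm, hα.2.1, sub_self]
        have p2 : inner ℝ (s - α) n2 = 0 := by
          rw [inner_sub_left, real_inner_comm, hs.2.2, real_inner_comm, hα.2.2, sub_self]
        obtain ⟨l, hl⟩ := M4h51_par_cr hd p1 p2
        exact ⟨l, by rw [← hl]; abel⟩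
      refine ⟨α, β, hα.1, hβ.1, fun s hs e1 e2 => ?_⟩
      have hsS : s ∈ S := ⟨hs, e1, e2⟩
      obtain ⟨l, hl⟩ := hpar s hsS
      obtain ⟨m, hm⟩ := hpar β hβ
      have hl0 : 0 ≤ l := by
        have := isMinOn_iff.mp hαmin s hsS
        rw [hl, inner_add_right, inner_smul_right] at this
        nlinarith
      have hlm : l ≤ m := by
        have := isMaxOn_iff.mp hβmax s hsS
        rw [hl, hm, inner_add_right, inner_add_right, inner_smul_right, inner_smul_right] at this
        nlinarith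
      rcases eq_or_lt_of_le (le_trans hl0 hlm) with hm0 | hm0
      · have : l = 0 := by linarith
        rw [hl, this, zero_smul, add_zero]
        exact left_mem_segment ℝ α β
      · refine ⟨1 - l / m, l / m, ?_, by positivity, by ring, ?_⟩
        · rw [sub_nonneg, div_le_one hm0]
          exact hlm
        · rw [hl, hm, smul_add, smul_smul]
          have : l / m * m = l := by field_simp
          rw [this, ← add_assoc, ← add_smul]
          have : 1 - l / m + l / m = 1 := by ring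
          rw [this, one_smul]

/-- A nonzero vector has a nonzero cross product with some vector. -/
theorem M4h51_exists_cr_ne {n : E3} (hn : n ≠ 0) : ∃ e : E3, M4h51_cr n e ≠ 0 := by
  by_contra hcon0
  have hcon : ∀ e : E3, M4h51_cr n e = 0 := fun e => by_contra fun he => hcon0 ⟨e, he⟩
  apply hn
  have a0 := hcon !₂[1, 0, 0]
  have a1 := hcon !₂[0, 1, 0]
  have b2 : M4h51_cr n !₂[1, 0, 0] 2 = 0 := by rw [a0]; rfl
  have b1 : M4h51_cr n !₂[1, 0, 0] 1 = 0 := by rw [a0]; rfl
  have b0 : M4h51_cr n !₂[0, 1, 0] 2 = 0 := by rw [a1]; rfl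
  rw [M4h51_cr2] at b2 b0
  rw [M4h51_cr1] at b1
  simp at b2 b1 b0
  exact M4h51_ext b0 b2 b1

/-- Two vectors, the first nonzero, have a common nonzero perpendicular vector. -/
theorem M4h51_exists_perp {n1 : E3} (h1 : n1 ≠ 0) (n2 : E3) :
    ∃ d : E3, d ≠ 0 ∧ inner ℝ n1 d = 0 ∧ inner ℝ n2 d = 0 := by
  by_cases hd : M4h51_cr n1 n2 = 0
  · obtain ⟨t, ht⟩ := M4h51_par_of_cr_zero h1 hd
    obtain ⟨e, he⟩ := M4h51_exists_cr_ne h1
    refine ⟨M4h51_cr n1 e, he, M4h51_cr_perp_left n1 e, ?_⟩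
    rw [ht, inner_smul_left, M4h51_cr_perp_left n1 e, mul_zero]
  · exact ⟨M4h51_cr n1 n2, hd, M4h51_cr_perp_left n1 n2, M4h51_cr_perp_right n1 n2⟩

end Vale.Agent.Lib.P243.R3
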