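import Mathlib
import Vale.Agent.Lib.P243.Defs
import Vale.Agent.Lib.P243.R3.Defs
import Vale.Agent.Lib.P243.R3.helper51.M4Kit
import Vale.Agent.Lib.P243.R3.helper51.M4Sup
import Vale.Agent.Lib.P243.R3.helper51.M4Geo

/-!
# P243, `r_3 > 1/3`, module M4 (second copy): exit points and null planes
-/

namespace Vale.Agent.Lib.P243.R3

open MeasureTheory Set

/-- From a point of a compact set, every line leaves the set through a frontier point. -/
theorem M4h51_exit {K : Set E3} (hKc : IsCompact K) {c d : E3} (hc : c ∈ K) (hd : d ≠ 0) :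
    ∃ t : ℝ, c + t • d ∈ frontier K := by
  set T : Set ℝ := {t : ℝ | c + t • d ∈ K} with hT
  have hTcl : IsClosed T := by
    have : Continuous fun t : ℝ => c + t • d := by fun_prop
    exact hKc.isClosed.preimage this
  obtain ⟨R, hR⟩ := isBounded_iff_forall_norm_le.mp hKc.isBounded
  have hdn : 0 < ‖d‖ := norm_pos_iff.mpr hd
  have hTb : ∀ t ∈ T, |t| ≤ (R + ‖c‖) / ‖d‖ := by
    intro t ht
    have h1 : ‖c + t • d‖ ≤ R := hR _ ht
    have h2 : ‖t • d‖ ≤ ‖c + t • d‖ + ‖c‖ := by
      have e0 : t • d = (c + t • d) - c := by abel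
      calc ‖t • d‖ = ‖(c + t • d) - c‖ := congrArg norm e0
        _ ≤ ‖c + t • d‖ + ‖c‖ := norm_sub_le (c + t • d) c
    rw [norm_smul, Real.norm_eq_abs] at h2
    rw [le_div_iff₀ hdn]
    linarith
  have hTbdd : Bornology.IsBounded T := by
    apply (Metric.isBounded_Icc (-((R + ‖c‖) / ‖d‖)) ((R + ‖c‖) / ‖d‖)).subset
    intro t ht
    exact abs_le.mp (hTb t ht)
  have hTc : IsCompact T := Metric.isCompact_of_isClosed_isBounded hTcl hTbdd
  have hTne : T.Nonempty := ⟨0, by simpa [hT] using hc⟩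
  have hmem : sSup T ∈ T := hTc.sSup_mem hTne
  refine ⟨sSup T, ?_⟩
  rw [hKc.isClosed.frontier_eq]
  refine ⟨hmem, fun hint => ?_⟩
  rw [mem_interior_iff_mem_nhds, Metric.mem_nhds_iff] at hint
  obtain ⟨ε, hε, hball⟩ := hint
  have hk : c + (sSup T + ε / (2 * ‖d‖)) • d ∈ K := by
    apply hball
    rw [Metric.mem_ball, dist_eq_norm]
    have : c + (sSup T + ε / (2 * ‖d‖)) • d - (c + sSup T • d) = (ε / (2 * ‖d‖)) • d := by
      rw [add_smul]
      abel
    rw [this, norm_smul, Real.norm_eq_abs, abs_of_pos (by positivity)]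
    have : ε / (2 * ‖d‖) * ‖d‖ = ε / 2 := by field_simp
    rw [this]
    linarith
  have hle : sSup T + ε / (2 * ‖d‖) ≤ sSup T := le_csSup hTc.bddAbove hk
  have : 0 < ε / (2 * ‖d‖) := by positivity
  linarith

/-- A plane is a null set. -/
theorem M4h51_plane_null {ψ : E3} (hψ : ψ ≠ 0) (r : ℝ) :
    volume {z : E3 | inner ℝ ψ z = r} = 0 := by
  rcases (Set.eq_empty_or_nonempty {z : E3 | inner ℝ ψ z = r}) with h | ⟨x0, hx0⟩
  · rw [h]
    exact measure_empty
  · have hsub : {z : E3 | inner ℝ ψ z = r} ⊆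
        (AffineSubspace.mk' x0 (Submodule.span ℝ {ψ})ᗮ : Set E3) := by
      intro z hz
      rw [SetLike.mem_coe, AffineSubspace.mem_mk', vsub_eq_sub,
        Submodule.mem_orthogonal_singleton_iff_inner_right, inner_sub_right]
      have hz' : inner ℝ ψ z = r := hz
      have hx0' : inner ℝ ψ x0 = r := hx0
      rw [hz', hx0', sub_self]
    have hne : AffineSubspace.mk' x0 (Submodule.span ℝ {ψ})ᗮ ≠ ⊤ := by
      intro htop
      have hmem : x0 + ψ ∈ AffineSubspace.mk' x0 (Submodule.span ℝ {ψ})ᗮ := by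
        rw [htop]
        exact AffineSubspace.mem_top ℝ E3 _
      rw [AffineSubspace.mem_mk', vsub_eq_sub, add_sub_cancel_left,
        Submodule.mem_orthogonal_singleton_iff_inner_right] at hmem
      exact hψ (inner_self_eq_zero.mp hmem)
    exact measure_mono_null hsub (Measure.addHaar_affineSubspace volume _ hne)

/-- The points from which the line in direction `d` meets the line through `a1`, `a2`
form a null set. -/
theorem M4h51_line_null {a1 a2 : E3} (ha : a1 ≠ a2) (d : E3) :
    volume {c : E3 | ∃ s t : ℝ, c + t • d - a1 = s • (a2 - a1)} = 0 := by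
  have hne : a2 - a1 ≠ 0 := sub_ne_zero.mpr (Ne.symm ha)
  obtain ⟨ψ, hψ, p1, p2⟩ := M4h51_exists_perp hne d
  apply measure_mono_null _ (M4h51_plane_null hψ (inner ℝ ψ a1))
  rintro c ⟨s, t, hst⟩
  show inner ℝ ψ c = inner ℝ ψ a1
  have e : c = a1 + s • (a2 - a1) - t • d := by
    rw [← hst]
    abel
  have q1 : inner ℝ ψ (a2 - a1) = 0 := by rw [real_inner_comm]; exact p1
  have q2 : inner ℝ ψ d = 0 := by rw [real_inner_comm]; exact p2
  rw [e, inner_sub_right, inner_add_right, inner_smul_right, inner_smul_right, q1, q2]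
  ring

end Vale.Agent.Lib.P243.R3
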