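import Mathlib
import Vale.Agent.Lib.P243.Defs
import Vale.Agent.Lib.P243.R3.Defs
import Vale.Agent.Lib.P243.R3.helper51.M4Kit
import Vale.Agent.Lib.P243.R3.helper51.M4Sup
import Vale.Agent.Lib.P243.R3.helper51.M4Geo
import Vale.Agent.Lib.P243.R3.helper51.M4Exit

/-!
# P243, `r_3 > 1/3`, module M4 (second copy): a small set meeting every star pair

For a convex body `K` of Euclidean 3-space there are three segments in `K` whose union
contains an endpoint of every pair `p`, `q` with the star property (for every frontier point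
`x`, the segment from `p` to `x` or the segment from `q` to `x` lies in the frontier).
-/

namespace Vale.Agent.Lib.P243.R3

open MeasureTheory Set

/-- If all facet planes are among two support planes, two star pairs share an endpoint. -/
theorem M4h51_share {K : Set E3} (hK : Body K) {n1 n2 : E3} {c1 c2 : ℝ}
    (hn1 : n1 ≠ 0) (hle1 : ∀ k ∈ K, inner ℝ n1 k ≤ c1)
    (hn2 : n2 ≠ 0) (hle2 : ∀ k ∈ K, inner ℝ n2 k ≤ c2)
    (hfac : ∀ (n : E3) (c : ℝ), M4h51_Facet K n c →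
      M4h51_SameP n c n1 c1 ∨ M4h51_SameP n c n2 c2)
    {p1 q1 p2 q2 : E3} (hs1 : M4h51_Star K p1 q1) (hs2 : M4h51_Star K p2 q2) :
    p1 = p2 ∨ p1 = q2 ∨ q1 = p2 ∨ q1 = q2 := by
  by_contra hcon
  obtain ⟨h11, h12, h21, h22⟩ : p1 ≠ p2 ∧ p1 ≠ q2 ∧ q1 ≠ p2 ∧ q1 ≠ q2 :=
    ⟨fun h => hcon (Or.inl h), fun h => hcon (Or.inr (Or.inl h)),
      fun h => hcon (Or.inr (Or.inr (Or.inl h))), fun h => hcon (Or.inr (Or.inr (Or.inr h)))⟩
  have key : ∀ x ∈ frontier K, inner ℝ n1 x = c1 ∨ inner ℝ n2 x = c2 ∨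
      ∃ a1 a2 : E3, (a1 = p1 ∨ a1 = q1) ∧ (a2 = p2 ∨ a2 = q2) ∧
        ∃ s : ℝ, x - a1 = s • (a2 - a1) := by
    intro x hx
    have hxK : x ∈ K := by
      have h := hx
      rw [hK.compact.isClosed.frontier_eq] at h
      exact h.1
    obtain ⟨a1, g1, ha1, hg1, e1⟩ := M4h51_star_co hK hs1 hx
    have ha1K : a1 ∈ K := by
      rcases ha1 with h | h
      · rw [h]; exact hs1.1
      · rw [h]; exact hs1.2.1
    obtain ⟨x', hx'⟩ : ∃ x' : E3, x' = (1 / 2 : ℝ) • a1 + (1 / 2 : ℝ) • x := ⟨_, rfl⟩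
    have hx'K : x' ∈ K := by
      rw [hx']
      exact hK.conv ha1K hxK (by norm_num) (by norm_num) (by norm_num)
    have hg1x' : inner ℝ g1 x' = inner ℝ g1 x := by
      rw [hx', inner_add_right, inner_smul_right, inner_smul_right, e1]
      ring
    have hsup' : M4h51_Sup K g1 x' :=
      ⟨hg1.1, hx'K, fun k hk => by rw [hg1x']; exact hg1.2.2 k hk⟩
    have hx'f : x' ∈ frontier K := M4h51_mem_frontier hK hsup'
    obtain ⟨a2, g2, ha2, hg2, e2⟩ := M4h51_star_co hK hs2 hx'f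
    have ha2K : a2 ∈ K := by
      rcases ha2 with h | h
      · rw [h]; exact hs2.1
      · rw [h]; exact hs2.2.1
    have u1 := hg2.2.2 a1 ha1K
    have u2 := hg2.2.2 x hxK
    have hg2x' : inner ℝ g2 x' = (1 / 2 : ℝ) * inner ℝ g2 a1 + (1 / 2 : ℝ) * inner ℝ g2 x := by
      rw [hx', inner_add_right, inner_smul_right, inner_smul_right]
    have v1 : inner ℝ g2 a1 = inner ℝ g2 x' := by linarith
    have v2 : inner ℝ g2 x = inner ℝ g2 x' := by linarith
    have hne12 : a1 ≠ a2 := by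
      rcases ha1 with h | h <;> rcases ha2 with h' | h' <;> rw [h, h'] <;> assumption
    by_cases hcr : M4h51_cr (a2 - a1) (x - a1) = 0
    · right; right
      obtain ⟨s, hs⟩ := M4h51_par_of_cr_zero (sub_ne_zero.mpr (Ne.symm hne12)) hcr
      exact ⟨a1, a2, ha1, ha2, s, hs⟩
    · have hF : M4h51_Facet K g2 (inner ℝ g2 x') :=
        ⟨hg2.1, hg2.2.2, a1, ha1K, a2, ha2K, x, hxK, v1, e2, v2, hcr⟩
      rcases hfac _ _ hF with hP | hP
      · left; exact (hP x).mp v2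
      · right; left; exact (hP x).mp v2
  obtain ⟨d, hd, pd1, pd2⟩ := M4h51_exists_perp hn1 n2
  obtain ⟨c0, hc0⟩ := hK.int
  obtain ⟨ρ, hρ, hball⟩ := Metric.isOpen_iff.mp isOpen_interior c0 hc0
  have hcover : Metric.ball c0 ρ ⊆
      {c : E3 | ∃ s t : ℝ, c + t • d - p1 = s • (p2 - p1)} ∪
        {c : E3 | ∃ s t : ℝ, c + t • d - p1 = s • (q2 - p1)} ∪
        {c : E3 | ∃ s t : ℝ, c + t • d - q1 = s • (p2 - q1)} ∪
        {c : E3 | ∃ s t : ℝ, c + t • d - q1 = s • (q2 - q1)} := by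
    intro c hc
    have hci : c ∈ interior K := hball hc
    obtain ⟨t, ht⟩ := M4h51_exit hK.compact (interior_subset hci) hd
    rcases key _ ht with h | h | ⟨a1, a2, ha1, ha2, s, hs⟩
    · exfalso
      rw [inner_add_right, inner_smul_right, pd1, mul_zero, add_zero] at h
      exact absurd h (ne_of_lt (M4h51_interior_lt hn1 hle1 hci))
    · exfalso
      rw [inner_add_right, inner_smul_right, pd2, mul_zero, add_zero] at h
      exact absurd h (ne_of_lt (M4h51_interior_lt hn2 hle2 hci))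
    · rcases ha1 with h | h <;> rcases ha2 with h' | h' <;> rw [h, h'] at hs
      · left; left; left; exact ⟨s, t, hs⟩
      · left; left; right; exact ⟨s, t, hs⟩
      · left; right; exact ⟨s, t, hs⟩
      · right; exact ⟨s, t, hs⟩
  have hnull : volume (Metric.ball c0 ρ) = 0 := by
    apply measure_mono_null hcover
    simp only [measure_union_null_iff]
    exact ⟨⟨⟨M4h51_line_null h11 d, M4h51_line_null h12 d⟩, M4h51_line_null h21 d⟩,
      M4h51_line_null h22 d⟩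
  have hpos : 0 < volume (Metric.ball c0 ρ) :=
    Metric.isOpen_ball.measure_pos volume ⟨c0, Metric.mem_ball_self hρ⟩
  rw [hnull] at hpos
  exact lt_irrefl _ hpos

/-- Three facets in pairwise distinct planes: the three pairwise intersections work. -/
theorem M4h51_case_one {K : Set E3} (hK : Body K) {n1 n2 n3 : E3} {c1 c2 c3 : ℝ}
    (hF1 : M4h51_Facet K n1 c1) (hF2 : M4h51_Facet K n2 c2) (hF3 : M4h51_Facet K n3 c3)
    (h12 : ¬ M4h51_SameP n1 c1 n2 c2) (h13 : ¬ M4h51_SameP n1 c1 n3 c3)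
    (h23 : ¬ M4h51_SameP n2 c2 n3 c3) :
    ∃ α β : Fin 3 → E3, (∀ j, α j ∈ K ∧ β j ∈ K) ∧ ∀ p q : E3, M4h51_Star K p q →
      (p ∈ ⋃ j, segment ℝ (α j) (β j)) ∨ (q ∈ ⋃ j, segment ℝ (α j) (β j)) := by
  have hne : K.Nonempty := hK.int.mono interior_subset
  obtain ⟨α0, β0, hα0, hβ0, H0⟩ := M4h51_planes_seg hK.compact hne hF1.1 hF2.1 h12
  obtain ⟨α1, β1, hα1, hβ1, H1⟩ := M4h51_planes_seg hK.compact hne hF1.1 hF3.1 h13
  obtain ⟨α2, β2, hα2, hβ2, H2⟩ := M4h51_planes_seg hK.compact hne hF2.1 hF3.1 h23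
  refine ⟨![α0, α1, α2], ![β0, β1, β2], ?_, ?_⟩
  · intro j
    fin_cases j
    · exact ⟨hα0, hβ0⟩
    · exact ⟨hα1, hβ1⟩
    · exact ⟨hα2, hβ2⟩
  · intro p q hs
    have m0 : ∀ z ∈ K, inner ℝ n1 z = c1 → inner ℝ n2 z = c2 →
        z ∈ ⋃ j, segment ℝ (![α0, α1, α2] j) (![β0, β1, β2] j) :=
      fun z hz e1 e2 => mem_iUnion.mpr ⟨0, by simpa using H0 z hz e1 e2⟩
    have m1 : ∀ z ∈ K, inner ℝ n1 z = c1 → inner ℝ n3 z = c3 →
        z ∈ ⋃ j, segment ℝ (![α0, α1, α2] j) (![β0, β1, β2] j) :=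
      fun z hz e1 e3 => mem_iUnion.mpr ⟨1, by simpa using H1 z hz e1 e3⟩
    have m2 : ∀ z ∈ K, inner ℝ n2 z = c2 → inner ℝ n3 z = c3 →
        z ∈ ⋃ j, segment ℝ (![α0, α1, α2] j) (![β0, β1, β2] j) :=
      fun z hz e2 e3 => mem_iUnion.mpr ⟨2, by simpa using H2 z hz e2 e3⟩
    rcases M4h51_facet_mem hK hs hF1 with a1 | a1 <;>
      rcases M4h51_facet_mem hK hs hF2 with a2 | a2 <;>
      rcases M4h51_facet_mem hK hs hF3 with a3 | a3
    · exact Or.inl (m0 p hs.1 a1 a2)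
    · exact Or.inl (m0 p hs.1 a1 a2)
    · exact Or.inl (m1 p hs.1 a1 a3)
    · exact Or.inr (m2 q hs.2.1 a2 a3)
    · exact Or.inl (m2 p hs.1 a2 a3)
    · exact Or.inr (m1 q hs.2.1 a1 a3)
    · exact Or.inr (m0 q hs.2.1 a1 a2)
    · exact Or.inr (m0 q hs.2.1 a1 a2)

/-- Three segments in `K` meeting every star pair. -/
theorem M4h51_core {K : Set E3} (hK : Body K) :
    ∃ α β : Fin 3 → E3, (∀ j, α j ∈ K ∧ β j ∈ K) ∧ ∀ p q : E3, M4h51_Star K p q →
      (p ∈ ⋃ j, segment ℝ (α j) (β j)) ∨ (q ∈ ⋃ j, segment ℝ (α j) (β j)) := by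
  have hne : K.Nonempty := hK.int.mono interior_subset
  by_cases h3 : ∃ (n1 n2 n3 : E3) (c1 c2 c3 : ℝ), M4h51_Facet K n1 c1 ∧ M4h51_Facet K n2 c2 ∧
      M4h51_Facet K n3 c3 ∧ ¬ M4h51_SameP n1 c1 n2 c2 ∧ ¬ M4h51_SameP n1 c1 n3 c3 ∧
      ¬ M4h51_SameP n2 c2 n3 c3
  · obtain ⟨n1, n2, n3, c1, c2, c3, hF1, hF2, hF3, h12, h13, h23⟩ := h3
    exact M4h51_case_one hK hF1 hF2 hF3 h12 h13 h23
  · have hplanes : ∃ (n1 n2 : E3) (c1 c2 : ℝ), n1 ≠ 0 ∧ (∀ k ∈ K, inner ℝ n1 k ≤ c1) ∧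
        n2 ≠ 0 ∧ (∀ k ∈ K, inner ℝ n2 k ≤ c2) ∧
        ∀ (n : E3) (c : ℝ), M4h51_Facet K n c →
          M4h51_SameP n c n1 c1 ∨ M4h51_SameP n c n2 c2 := by
      by_cases hF : ∃ (n : E3) (c : ℝ), M4h51_Facet K n c
      · obtain ⟨n1, c1, hF1⟩ := hF
        by_cases hF' : ∃ (n : E3) (c : ℝ), M4h51_Facet K n c ∧ ¬ M4h51_SameP n c n1 c1
        · obtain ⟨n2, c2, hF2, hdiff⟩ := hF'
          refine ⟨n1, n2, c1, c2, hF1.1, hF1.2.1, hF2.1, hF2.2.1, fun n c hFn => ?_⟩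
          by_contra hcon
          rw [not_or] at hcon
          apply h3
          refine ⟨n1, n2, n, c1, c2, c, hF1, hF2, hFn, ?_, ?_, ?_⟩
          · exact fun h => hdiff (fun z => (h z).symm)
          · exact fun h => hcon.1 (fun z => (h z).symm)
          · exact fun h => hcon.2 (fun z => (h z).symm)
        · refine ⟨n1, n1, c1, c1, hF1.1, hF1.2.1, hF1.1, hF1.2.1, fun n c hFn => ?_⟩
          left
          by_contra hcon
          exact hF' ⟨n, c, hFn, hcon⟩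
      · have hcont : ContinuousOn
            (fun s : E3 => inner ℝ (EuclideanSpace.single (0 : Fin 3) (1 : ℝ)) s) K := by
          apply Continuous.continuousOn
          fun_prop
        obtain ⟨x, hx, hmax⟩ := hK.compact.exists_isMaxOn hne hcont
        have hn0 : (EuclideanSpace.single (0 : Fin 3) (1 : ℝ)) ≠ 0 := by
          intro h
          have := congrArg (fun v : E3 => v 0) h
          simp at this
        refine ⟨_, _, _, _, hn0, fun k hk => isMaxOn_iff.mp hmax k hk, hn0,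
          fun k hk => isMaxOn_iff.mp hmax k hk, fun n c hFn => ?_⟩
        exact absurd ⟨n, c, hFn⟩ hF
    obtain ⟨n1, n2, c1, c2, hn1, hle1, hn2, hle2, hfac⟩ := hplanes
    by_cases hst : ∃ p1 q1 : E3, M4h51_Star K p1 q1
    · obtain ⟨p1, q1, hs1⟩ := hst
      refine ⟨![p1, q1, p1], ![p1, q1, p1], ?_, ?_⟩
      · intro j
        fin_cases j
        · exact ⟨hs1.1, hs1.1⟩
        · exact ⟨hs1.2.1, hs1.2.1⟩
        · exact ⟨hs1.1, hs1.1⟩
      · intro p q hs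
        have mp : p1 ∈ ⋃ j, segment ℝ (![p1, q1, p1] j) (![p1, q1, p1] j) :=
          mem_iUnion.mpr ⟨0, by simp⟩
        have mq : q1 ∈ ⋃ j, segment ℝ (![p1, q1, p1] j) (![p1, q1, p1] j) :=
          mem_iUnion.mpr ⟨1, by simp⟩
        rcases M4h51_share hK hn1 hle1 hn2 hle2 hfac hs1 hs with h | h | h | h
        · left; rw [← h]; exact mp
        · right; rw [← h]; exact mp
        · left; rw [← h]; exact mq
        · right; rw [← h]; exact mq
    · obtain ⟨x0, hx0⟩ := hne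
      refine ⟨fun _ => x0, fun _ => x0, fun _ => ⟨hx0, hx0⟩, fun p q hs => ?_⟩
      exact absurd ⟨p, q, hs⟩ hst

/-- Module M4 with the equality case M3b as a hypothesis: three segments in `K` whose union
contains an endpoint of every efficient chord. -/
theorem M4h51_exists_hitting_of {K : Set E3} (hK : Body K)
    (hM3b : ∀ {p q : E3}, p ∈ K → q ∈ K → p ≠ q → Ahat K (q - p) = 3 * (volume K).toReal →
      ∀ {x : E3}, x ∈ frontier K →
        segment ℝ p x ⊆ frontier K ∨ segment ℝ q x ⊆ frontier K) :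
    ∃ α β : Fin 3 → E3, (∀ j, α j ∈ K ∧ β j ∈ K) ∧
      ∀ p ∈ K, ∀ q ∈ K, p ≠ q → Ahat K (q - p) = 3 * (volume K).toReal →
        (p ∈ ⋃ j, segment ℝ (α j) (β j)) ∨ (q ∈ ⋃ j, segment ℝ (α j) (β j)) := by
  obtain ⟨α, β, hαβ, H⟩ := M4h51_core hK
  exact ⟨α, β, hαβ, fun p hp q hq hpq heff =>
    H p q ⟨hp, hq, fun x hx => hM3b hp hq hpq heff hx⟩⟩

end Vale.Agent.Lib.P243.R3
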